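import Vale.Agent.P361.Asymptotic

/-! # One half of Bloch's law, with the sharp coefficient -/

namespace Vale.Agent.Results.P361.BlochHalf

open Vale.Agent.P361 Filter Topology

theorem result :
    ∀ n : ℕ, 1 ≤ n →
      (∀ β : ℝ, 0 < β →
        (∀ h : ℝ, Tendsto (pressureN n β h) atTop (𝓝 (pressure n β h))) ∧
        DifferentiableWithinAt ℝ (pressure n β) (Set.Ioi 0) 0) ∧
      (∀ ε : ℝ, 0 < ε → ∀ᶠ β : ℝ in atTop,
        (riemannZeta (3 / 2)).re
            / (8 * Real.pi ^ ((3 : ℝ) / 2) * ((n : ℝ) / 2) ^ ((3 : ℝ) / 2)) - ε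
          ≤ β ^ ((3 : ℝ) / 2) * ((n : ℝ) / 2 - magnetization n β)) :=
  fun n hn => ⟨fun _ hβ => ⟨fun h => pressure_tendsto n hβ h, magnetization_diff n hβ⟩,
    fun _ hε => bloch_lower n hn hε⟩

end Vale.Agent.Results.P361.BlochHalf
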